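import Vale.Agent.P272.K.Asm.Twisted
import Vale.Agent.P272.K.Asm.Final
import Vale.Agent.P272.K.INT.Gronwall
import Vale.Agent.P272.K.T4.BlockA
import Vale.Agent.P272.K.T4.L3
import Vale.Agent.P272.K.T4.L5GlobA

/-! # Block C of NEF: for a Hermitian metric of nonpositive holomorphic sectional curvature and
`K_X + a w` nef with `a > 0`, one has `(K_X + a w)^n > 0`. -/

open scoped Manifold ContDiff ComplexOrder Topology
open Complex Set Filter MeasureTheory

set_option linter.all false

noncomputable section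

namespace Vale.Agent.P272.K.AMP.NF

open INT (IsDensity intX part Part)
open T4

variable {n : ℕ}

open scoped MatrixOrder in
/-- `(tr A W)² ≤ n tr (A W A W)` for positive semidefinite matrices -/
lemma trace_sq_le {A W : Matrix (Fin n) (Fin n) ℂ} (hA : A.PosSemidef) (hW : W.PosSemidef) :
    (A * W).trace.re ^ 2 ≤ n * (A * W * A * W).trace.re := by
  obtain ⟨C, rfl⟩ := CStarAlgebra.nonneg_iff_eq_star_mul_self.mp hA.nonneg
  rw [Matrix.star_eq_conjTranspose]
  set P : Matrix (Fin n) (Fin n) ℂ := C * W * C.conjTranspose with hP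
  have hPH : P.IsHermitian := (hW.mul_mul_conjTranspose_same C).1
  have h1 : (C.conjTranspose * C * W).trace = P.trace := by
    rw [hP, Matrix.mul_assoc, Matrix.trace_mul_comm]
  have h2 : (C.conjTranspose * C * W * (C.conjTranspose * C) * W).trace = (P * P).trace := by
    have : C.conjTranspose * C * W * (C.conjTranspose * C) * W =
        C.conjTranspose * (C * W * C.conjTranspose * C * W) := by
      simp only [Matrix.mul_assoc]
    rw [this, Matrix.trace_mul_comm, hP]
    simp only [Matrix.mul_assoc]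
  rw [h1, h2]
  have h3 : (P * P).trace.re = ∑ i, ∑ j, Complex.normSq (P i j) := by
    rw [Matrix.trace, Complex.re_sum]
    refine Finset.sum_congr rfl fun i _ => ?_
    rw [Matrix.diag_apply, Matrix.mul_apply, Complex.re_sum]
    refine Finset.sum_congr rfl fun j _ => ?_
    have h4 : P j i = star (P i j) := by
      conv_lhs => rw [← hPH.eq]
      rfl
    rw [h4, ← Complex.ofReal_re (Complex.normSq (P i j)), ← Complex.mul_conj]
    rfl
  rw [h3]
  have h5 : P.trace.re = ∑ i, (P i i).re := by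
    rw [Matrix.trace, Complex.re_sum]; rfl
  rw [h5]
  have h6 := sq_sum_le_card_mul_sum_sq (s := (Finset.univ : Finset (Fin n)))
    (f := fun i => (P i i).re)
  simp only [Finset.card_univ, Fintype.card_fin] at h6
  refine h6.trans (mul_le_mul_of_nonneg_left (Finset.sum_le_sum fun i _ => ?_) (Nat.cast_nonneg n))
  have h7 : (P i i).re ^ 2 ≤ Complex.normSq (P i i) := by
    rw [Complex.normSq_apply]; nlinarith [mul_self_nonneg (P i i).im]
  exact h7.trans (Finset.single_le_sum (f := fun j => Complex.normSq (P i j))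
    (fun j _ => Complex.normSq_nonneg _) (Finset.mem_univ i))

section
variable {X : Type} [TopologicalSpace X] [ChartedSpace (Cm n) X] [IsManifold 𝓘(ℂ, Cm n) ω X]

/-- the twisted Kähler-Einstein metrics, with the equation as an equality -/
theorem ke_of_nef (hAY : AubinYau n X) {w : Chart n X → Cm n → Matrix (Fin n) (Fin n) ℂ}
    (hw : IsKahler w) {a : ℝ} (ha : 0 ≤ a) (hnef : NefCanonical w a) (t : ℝ) (ht : a < t) :
    ∃ ψ : Chart n X → Cm n → ℝ, IsCanonicalMetric ψ ∧
      (∀ e x, At e x → (cHess (ψ e) (e x) + (t : ℂ) • w e (e x)).PosDef) ∧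
      ∀ e x, At e x → -cHess (fun z => Real.log (cHess (ψ e) z + (t : ℂ) • w e z).det.re) (e x) +
        (cHess (ψ e) (e x) + (t : ℂ) • w e (e x)) = (t : ℂ) • w e (e x) := by
  obtain ⟨ε, hε, rfl⟩ : ∃ ε : ℝ, 0 < ε ∧ t = a + ε := ⟨t - a, sub_pos.2 ht, by ring⟩
  obtain ⟨φ0, hφ0, hpsd⟩ := hnef (ε / 2) (half_pos hε)
  have hpos : ∀ e x, At e x → (cHess (φ0 e) (e x) + ((a + ε : ℝ) : ℂ) • w e (e x)).PosDef := by
    intro e x hx
    have h1 : cHess (φ0 e) (e x) + ((a + ε : ℝ) : ℂ) • w e (e x) =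
        (cHess (φ0 e) (e x) + ((a + ε / 2 : ℝ) : ℂ) • w e (e x)) +
          ((ε / 2 : ℝ) : ℂ) • w e (e x) := by
      rw [add_assoc, ← add_smul]
      congr 2
      push_cast; ring
    rw [h1]
    exact Matrix.PosDef.posSemidef_add (hpsd e x hx)
      (posDef_ofReal_smul (hw.posDef e x hx) (half_pos hε))
  set χ : Chart n X → Cm n → Matrix (Fin n) (Fin n) ℂ :=
    fun e z => cHess (φ0 e) z + ((a + ε : ℝ) : ℂ) • w e z with hχdef
  have hχ : IsKahler χ := isKahler_twist hφ0 hw (a + ε) hpos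
  obtain ⟨u, hu, hupos, heq⟩ := hAY χ hχ (ricPot χ φ0) (smoothFn_ricPot hχ.toIsHermitian hφ0)
  have hsm : ∀ e x, At e x → ContDiffAt ℝ ∞ (fun z => φ0 e z + u (e.symm z)) (e x) :=
    fun e x hx => (hφ0.smooth e x hx).add (hu e x hx)
  have hcan : IsCanonicalMetric fun e z => φ0 e z + u (e.symm z) := by
    refine ⟨hsm, fun e e' x hx hx' => ?_⟩
    simp only [hx.left_inv, hx'.left_inv]
    rw [hφ0.change e e' x hx hx']; ring
  have htwo : ∀ {f : Cm n → ℝ} {z}, ContDiffAt ℝ ∞ f z → ContDiffAt ℝ 2 f z :=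
    fun h => h.of_le (by exact WithTop.coe_le_coe.2 le_top)
  have hcH : ∀ e x, At e x → cHess (fun z => φ0 e z + u (e.symm z)) (e x) +
      ((a + ε : ℝ) : ℂ) • w e (e x) = addH χ u e (e x) := by
    intro e x hx
    rw [cHess_add (htwo (hφ0.smooth e x hx)) (htwo (hu e x hx))]
    simp only [addH, hχdef]
    abel
  refine ⟨fun e z => φ0 e z + u (e.symm z), hcan, fun e x hx => ?_, fun e x hx => ?_⟩
  · rw [hcH e x hx]; exact hupos e x hx
  · -- log det g = φ
    have h1 : (fun z => Real.log (cHess (fun z => φ0 e z + u (e.symm z)) z +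
        ((a + ε : ℝ) : ℂ) • w e z).det.re) =ᶠ[𝓝 (e x)] fun z => φ0 e z + u (e.symm z) := by
      filter_upwards [hx.nhds_target] with z hz
      have hz' := At.of_target hx.1 hz
      have h2 := hcH e _ hz'
      have h3 := heq e _ hz'
      have h4 := ricPot_eq hχ.toIsHermitian hφ0 hz'
      rw [e.right_inv hz] at h2 h3 h4
      rw [h2]
      rw [h4] at h3
      linarith
    rw [cHess_congr h1]
    abel

end

section
variable {X : Type} [TopologicalSpace X] [T2Space X] [CompactSpace X] [ChartedSpace (Cm n) X]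
  [IsManifold 𝓘(ℂ, Cm n) ω X]

/-- the `L¹` bound of `tr_g w` for `Ric g + g = t w`, `t > a > 0` -/
theorem trace_bound_s {w h : Chart n X → Cm n → Matrix (Fin n) (Fin n) ℂ} (hw : IsHermitian w)
    (hh : IsHermitian h) (hneg : NonposHSC h) {a : ℝ} (ha : 0 < a) :
    ∃ C : ℝ, ∀ g : Chart n X → Cm n → Matrix (Fin n) (Fin n) ℂ, IsKahler g → ∀ t : ℝ, a < t →
      (∀ e x, At e x → -cHess (fun z => Real.log (g e z).det.re) (e x) + g e (e x) =
        (t : ℂ) • w e (e x)) →
      intX (fun e z => ((g e z)⁻¹ * w e z).trace.re * (g e z).det.re) ≤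
        C * intX (fun e z => (g e z).det.re) := by
  obtain ⟨χ, hχ⟩ := exists_wt
  obtain ⟨A, hA, hAw⟩ := exists_comparison hh hw
  obtain ⟨B, hB, hBh⟩ := exists_comparison hw hh
  -- `a T_w² ≤ n A M`, `T_h ≤ B T_w`
  set K : ℝ := n * A * B / a with hK
  have hK0 : 0 ≤ K := by positivity
  refine ⟨K + 1, fun g hg t ht hric => ?_⟩
  have hgH := hg.toIsHermitian
  have ht0 : 0 < t := ha.trans ht
  have hdet : ∀ e x, At e x → 0 < (g e (e x)).det.re := fun e x hx =>
    (INT.posDef_det_re (hgH.posDef e x hx)).1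
  have hG2 := G2 hχ hg hh hneg
  have hd0 : IsDensity fun e z => (g e z).det.re := by
    have := isDensity_trace (F := fun _ => (1 : ℝ)) hgH hh continuous_const
    simpa using this
  have hdw : IsDensity fun e z => (fun T : ℝ => T) (((g e z)⁻¹ * w e z).trace.re) *
      (g e z).det.re := isDensity_trace hgH hw continuous_id
  have hdw2 : IsDensity fun e z => (fun T : ℝ => T ^ 2) (((g e z)⁻¹ * w e z).trace.re) *
      (g e z).det.re := isDensity_trace (F := fun T : ℝ => T ^ 2) hgH hw (by fun_prop)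
  have hdh : IsDensity fun e z => (fun T : ℝ => T) (((g e z)⁻¹ * h e z).trace.re) *
      (g e z).det.re := isDensity_trace hgH hh continuous_id
  have hdM : IsDensity fun e z => Ml (g e) (h e) z * dt g e z := isDensity_Ml hgH hh
  -- pointwise
  have hp1 : ∀ e x, At e x → a * ((g e (e x))⁻¹ * w e (e x)).trace.re ^ 2 ≤
      n * A * Ml (g e) (h e) (e x) := by
    intro e x hx
    have hgi := (hgH.posDef e x hx).inv.posSemidef
    have hwp := (hw.posDef e x hx).posSemidef
    have h1 := trace_sq_le hgi hwp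
    have h2 : Ml (g e) (h e) (e x) =
        t * ((g e (e x))⁻¹ * w e (e x) * (g e (e x))⁻¹ * h e (e x)).trace.re := by
      unfold Ml
      rw [hric e x hx]
      simp only [Matrix.mul_smul, Matrix.smul_mul, Matrix.trace_smul, smul_eq_mul,
        Complex.re_ofReal_mul]
    have h3 : (g e (e x))⁻¹ * w e (e x) * (g e (e x))⁻¹ |>.PosSemidef := by
      have := hwp.mul_mul_conjTranspose_same (g e (e x))⁻¹
      rwa [hgi.1.eq] at this
    have h4 := trace_mul_nonneg_re h3 (hAw e x hx)
    rw [Matrix.mul_sub, Matrix.mul_smul, Matrix.trace_sub, Matrix.trace_smul, smul_eq_mul,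
      Complex.sub_re, Complex.re_ofReal_mul] at h4
    set W := ((g e (e x))⁻¹ * w e (e x) * (g e (e x))⁻¹ * w e (e x)).trace.re
    set H := ((g e (e x))⁻¹ * w e (e x) * (g e (e x))⁻¹ * h e (e x)).trace.re
    have h5 : 0 ≤ H := trace_mul_nonneg_re h3 (hh.posDef e x hx).posSemidef
    rw [h2]
    calc a * ((g e (e x))⁻¹ * w e (e x)).trace.re ^ 2 ≤ a * (n * W) :=
          mul_le_mul_of_nonneg_left h1 ha.le
      _ ≤ a * (n * (A * H)) := by
          refine mul_le_mul_of_nonneg_left (mul_le_mul_of_nonneg_left ?_ (Nat.cast_nonneg n)) ha.le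
          linarith
      _ ≤ t * (n * (A * H)) := mul_le_mul_of_nonneg_right ht.le (by positivity)
      _ = _ := by ring
  have hp2 : ∀ e x, At e x → ((g e (e x))⁻¹ * h e (e x)).trace.re ≤
      B * ((g e (e x))⁻¹ * w e (e x)).trace.re := by
    intro e x hx
    have h8 : 0 ≤ ((g e (e x))⁻¹ * ((B : ℂ) • w e (e x) - h e (e x))).trace.re :=
      trace_mul_nonneg_re (hgH.posDef e x hx).inv.posSemidef (hBh e x hx)
    rw [Matrix.mul_sub, Matrix.mul_smul, Matrix.trace_sub, Matrix.trace_smul, smul_eq_mul,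
      Complex.sub_re, Complex.re_ofReal_mul] at h8
    linarith
  set T1 := intX (fun e z => ((g e z)⁻¹ * w e z).trace.re * (g e z).det.re) with hT1
  set T2 := intX (fun e z => ((g e z)⁻¹ * w e z).trace.re ^ 2 * (g e z).det.re) with hT2
  set V := intX (fun e z => (g e z).det.re) with hV
  have hT10 : 0 ≤ T1 := INT.intX_nonneg fun e x hx =>
    mul_nonneg (trace_mul_nonneg_re (hgH.posDef e x hx).inv.posSemidef
      (hw.posDef e x hx).posSemidef) (hdet e x hx).le
  have i1 : a * T2 ≤ n * A * intX (fun e z => Ml (g e) (h e) z * dt g e z) := by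
    rw [hT2, ← INT.intX_const_mul, ← INT.intX_const_mul]
    refine INT.intX_mono (hdw2.const_mul a) (hdM.const_mul _) fun e x hx => ?_
    have := mul_le_mul_of_nonneg_right (hp1 e x hx) (hdet e x hx).le
    unfold dt
    linarith
  have i2 : intX (fun e z => Tr g h e z * dt g e z) ≤ B * T1 := by
    rw [hT1, ← INT.intX_const_mul]
    refine INT.intX_mono hdh (hdw.const_mul B) fun e x hx => ?_
    have h1 := mul_le_mul_of_nonneg_right (hp2 e x hx) (hdet e x hx).le
    show ((g e (e x))⁻¹ * h e (e x)).trace.re * (g e (e x)).det.re ≤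
      B * (((g e (e x))⁻¹ * w e (e x)).trace.re * (g e (e x)).det.re)
    linarith
  have i3 : T2 ≤ (K + 1) * T1 := by
    have h1 : a * T2 ≤ n * A * (B * T1) :=
      i1.trans (mul_le_mul_of_nonneg_left (hG2.trans i2) (by positivity))
    have h2 : T2 ≤ K * T1 := by
      rw [hK]
      have : n * A * B / a * T1 = (n * A * (B * T1)) / a := by ring
      rw [this, le_div_iff₀ ha]; linarith
    nlinarith
  have i4 : 2 * (K + 1) * T1 ≤ T2 + (K + 1) ^ 2 * V := by
    rw [hT1, hT2, hV, ← INT.intX_const_mul, ← INT.intX_const_mul,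
      ← INT.intX_add hdw2 (hd0.const_mul _)]
    refine INT.intX_mono (hdw.const_mul _) (hdw2.add (hd0.const_mul _)) fun e x hx => ?_
    have h1 := hdet e x hx
    set T := ((g e (e x))⁻¹ * w e (e x)).trace.re
    have h2 : 0 ≤ (T - (K + 1)) ^ 2 * (g e (e x)).det.re := by positivity
    show 2 * (K + 1) * (T * (g e (e x)).det.re) ≤ T ^ 2 * (g e (e x)).det.re +
      (K + 1) ^ 2 * (g e (e x)).det.re
    nlinarith
  have i5 : (K + 1) * T1 ≤ (K + 1) * ((K + 1) * V) := by nlinarith
  exact le_of_mul_le_mul_left i5 (by positivity)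

/-- **Block C of NEF**: nonpositive holomorphic sectional curvature (Hermitian metric) and
`K_X + a w` nef with `a > 0` give `(K_X + a w)^n > 0`. -/
theorem big_of_nonpos [Nonempty X] {w h : Chart n X → Cm n → Matrix (Fin n) (Fin n) ℂ}
    (hw : IsKahler w) (hh : IsHermitian h) (hneg : NonposHSC h) {a : ℝ} (ha : 0 < a)
    (hnef : NefCanonical w a) {φ : Chart n X → Cm n → ℝ} (hφ : IsCanonicalMetric φ) :
    ∃ I : ℝ, 0 < I ∧ IsIntegral (fun e z => (cHess (φ e) z + (a : ℂ) • w e z).det.re) I := by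
  obtain ⟨C, hC⟩ := trace_bound_s hw.toIsHermitian hh hneg ha
  refine INT.pos_of_ineq hw a hφ C fun t ht => ?_
  obtain ⟨ψ, hψ, hpos, hric⟩ := ke_of_nef (aubinYau n X) hw ha.le hnef t ht
  exact ⟨ψ, hψ, hpos, hC _ (isKahler_twist hψ hw t hpos) t ht hric⟩

end

end Vale.Agent.P272.K.AMP.NF
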