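import Vale.Agent.P272.K.AMP.NF.H977.Flat

/-! AMP-NF, block N6: nonpositive holomorphic sectional curvature without flat lines passes to
products; ampleness in dimensions `≥ 3` implies ampleness in all dimensions. -/

open scoped Manifold ContDiff ComplexOrder Topology
open Complex Set Filter

set_option linter.all false

noncomputable section

namespace Vale.Agent.P272.K.Prod

open T4 (chr crv nq)

section curvature
variable {n m : ℕ} {A : Cm n → Matrix (Fin n) (Fin n) ℂ} {D : Cm m → Matrix (Fin m) (Fin m) ℂ}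

lemma chr_bm (z : Cm (n + m)) (hA : (A (fstP z)).det ≠ 0) (hD : (D (sndP z)).det ≠ 0)
    (ξ : Cm (n + m)) :
    chr (bm A D) z ξ = glue (chr A (fstP z) (fstP ξ)) (chr D (sndP z) (sndP ξ)) := by
  have hinv : (bm A D z)⁻¹ = bd (A (fstP z))⁻¹ (D (sndP z))⁻¹ := bd_inv hA hD
  have aL : ∀ (i k q : Fin n) (z : Cm (n + m)), dz (Fin.castAdd m i) (fun y => A (fstP y) k q) z =
      dz i (fun w => A w k q) (fstP z) := fun i k q z => dz_fst_l i (fun w => A w k q) z
  have aR : ∀ (i : Fin m) (k q : Fin n) (z : Cm (n + m)),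
      dz (Fin.natAdd n i) (fun y => A (fstP y) k q) z = 0 :=
    fun i k q z => dz_fst_r i (fun w => A w k q) z
  have dR : ∀ (i k q : Fin m) (z : Cm (n + m)), dz (Fin.natAdd n i) (fun y => D (sndP y) k q) z =
      dz i (fun w => D w k q) (sndP z) := fun i k q z => dz_snd_r i (fun w => D w k q) z
  have dL : ∀ (i : Fin n) (k q : Fin m) (z : Cm (n + m)),
      dz (Fin.castAdd m i) (fun y => D (sndP y) k q) z = 0 :=
    fun i k q z => dz_snd_l i (fun w => D w k q) z
  funext l
  refine Fin.addCases (fun l => ?_) (fun l => ?_) l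
  · rw [glue_castAdd]
    simp only [chr, hinv, Fin.sum_univ_add, bm_ll, bm_lr, bm_rl, bm_rr, bd_ll, bd_lr, bd_rl, bd_rr,
      mul_zero, zero_mul, Finset.sum_const_zero, add_zero, zero_add, dz_const, aL, aR, dL]
    rfl
  · rw [glue_natAdd]
    simp only [chr, hinv, Fin.sum_univ_add, bm_ll, bm_lr, bm_rl, bm_rr, bd_ll, bd_lr, bd_rl, bd_rr,
      mul_zero, zero_mul, Finset.sum_const_zero, add_zero, zero_add, dz_const, dR, aR, dL]
    rfl

lemma crv_bm (z : Cm (n + m)) (hA : (A (fstP z)).det ≠ 0) (hD : (D (sndP z)).det ≠ 0)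
    (ξ : Cm (n + m)) :
    crv (bm A D) z ξ = glue (crv A (fstP z) (fstP ξ)) (crv D (sndP z) (sndP ξ)) := by
  have hinv : (bm A D z)⁻¹ = bd (A (fstP z))⁻¹ (D (sndP z))⁻¹ := bd_inv hA hD
  have c0 : ∀ (i j k l : Fin (n + m)), curv (bm A D) z i j k l =
      -dz i (dzb j fun y => bm A D y k l) z +
    ∑ q, ∑ p, dz i (fun y => bm A D y k q) z * (bd (A (fstP z))⁻¹ (D (sndP z))⁻¹) q p *
      dzb j (fun y => bm A D y p l) z := by
    intro i j k l; rw [curv, hinv]
  have c1 : ∀ i j k l : Fin n, curv (bm A D) z (Fin.castAdd m i) (Fin.castAdd m j)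
      (Fin.castAdd m k) (Fin.castAdd m l) = curv A (fstP z) i j k l := by
    intro i j k l
    rw [c0]
    simp only [Fin.sum_univ_add, bm_ll, bm_lr, bm_rl, bm_rr, bd_ll, bd_lr, bd_rl, bd_rr, mul_zero,
      zero_mul, Finset.sum_const_zero, add_zero, zero_add, dz_const, dzb_const]
    rw [fun_fst_l (fun w => A w k l) j, dz_fst_l i (dzb j fun w => A w k l), curv]
    congr 1
    refine Finset.sum_congr rfl fun q _ => Finset.sum_congr rfl fun p _ => ?_
    rw [dz_fst_l i (fun w => A w k q), dzb_fst_l j (fun w => A w p l)]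
  have c2 : ∀ i j k l : Fin m, curv (bm A D) z (Fin.natAdd n i) (Fin.natAdd n j)
      (Fin.natAdd n k) (Fin.natAdd n l) = curv D (sndP z) i j k l := by
    intro i j k l
    rw [c0]
    simp only [Fin.sum_univ_add, bm_ll, bm_lr, bm_rl, bm_rr, bd_ll, bd_lr, bd_rl, bd_rr, mul_zero,
      zero_mul, Finset.sum_const_zero, add_zero, zero_add, dz_const, dzb_const]
    rw [fun_snd_r (fun w => D w k l) j, dz_snd_r i (dzb j fun w => D w k l), curv]
    congr 1
    refine Finset.sum_congr rfl fun q _ => Finset.sum_congr rfl fun p _ => ?_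
    rw [dz_snd_r i (fun w => D w k q), dzb_snd_r j (fun w => D w p l)]
  have aL : ∀ (i k q : Fin n) (z : Cm (n + m)), dz (Fin.castAdd m i) (fun y => A (fstP y) k q) z =
      dz i (fun w => A w k q) (fstP z) := fun i k q z => dz_fst_l i (fun w => A w k q) z
  have aR : ∀ (i : Fin m) (k q : Fin n) (z : Cm (n + m)),
      dz (Fin.natAdd n i) (fun y => A (fstP y) k q) z = 0 :=
    fun i k q z => dz_fst_r i (fun w => A w k q) z
  have aLb : ∀ (i k q : Fin n) (z : Cm (n + m)), dzb (Fin.castAdd m i) (fun y => A (fstP y) k q) z =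
      dzb i (fun w => A w k q) (fstP z) := fun i k q z => dzb_fst_l i (fun w => A w k q) z
  have aRb : ∀ (i : Fin m) (k q : Fin n) (z : Cm (n + m)),
      dzb (Fin.natAdd n i) (fun y => A (fstP y) k q) z = 0 :=
    fun i k q z => dzb_fst_r i (fun w => A w k q) z
  have dR : ∀ (i k q : Fin m) (z : Cm (n + m)), dz (Fin.natAdd n i) (fun y => D (sndP y) k q) z =
      dz i (fun w => D w k q) (sndP z) := fun i k q z => dz_snd_r i (fun w => D w k q) z
  have dL : ∀ (i : Fin n) (k q : Fin m) (z : Cm (n + m)),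
      dz (Fin.castAdd m i) (fun y => D (sndP y) k q) z = 0 :=
    fun i k q z => dz_snd_l i (fun w => D w k q) z
  have dRb : ∀ (i k q : Fin m) (z : Cm (n + m)), dzb (Fin.natAdd n i) (fun y => D (sndP y) k q) z =
      dzb i (fun w => D w k q) (sndP z) := fun i k q z => dzb_snd_r i (fun w => D w k q) z
  have dLb : ∀ (i : Fin n) (k q : Fin m) (z : Cm (n + m)),
      dzb (Fin.castAdd m i) (fun y => D (sndP y) k q) z = 0 :=
    fun i k q z => dzb_snd_l i (fun w => D w k q) z
  have aLf : ∀ (i k q : Fin n), (dzb (Fin.castAdd m i) fun y => A (fstP y) k q) =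
      fun z => dzb i (fun w => A w k q) (fstP z) := fun i k q => funext fun z => aLb i k q z
  have aRf : ∀ (i : Fin m) (k q : Fin n), (dzb (Fin.natAdd n i) fun y => A (fstP y) k q) =
      fun z => 0 := fun i k q => funext fun z => aRb i k q z
  have dRf : ∀ (i k q : Fin m), (dzb (Fin.natAdd n i) fun y => D (sndP y) k q) =
      fun z => dzb i (fun w => D w k q) (sndP z) := fun i k q => funext fun z => dRb i k q z
  have dLf : ∀ (i : Fin n) (k q : Fin m), (dzb (Fin.castAdd m i) fun y => D (sndP y) k q) =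
      fun z => 0 := fun i k q => funext fun z => dLb i k q z
  have aLR : ∀ (i : Fin m) (j k q : Fin n) (z : Cm (n + m)),
      dz (Fin.natAdd n i) (fun z => dzb j (fun w => A w k q) (fstP z)) z = 0 :=
    fun i j k q z => dz_fst_r i (dzb j fun w => A w k q) z
  have dRL : ∀ (i : Fin n) (j k q : Fin m) (z : Cm (n + m)),
      dz (Fin.castAdd m i) (fun z => dzb j (fun w => D w k q) (sndP z)) z = 0 :=
    fun i j k q z => dz_snd_l i (dzb j fun w => D w k q) z
  funext l
  refine Fin.addCases (fun l => ?_) (fun l => ?_) l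
  · rw [glue_castAdd]
    simp only [crv, Fin.sum_univ_add]
    simp only [c1]
    simp only [c0, Fin.sum_univ_add, bm_ll, bm_lr, bm_rl, bm_rr, bd_ll, bd_lr, bd_rl, bd_rr,
      mul_zero, zero_mul, Finset.sum_const_zero, add_zero, zero_add, dz_const, dzb_const, aR, aRb,
      dL, dLb, aLf, aRf, dRf, dLf, aLR, dRL, neg_zero, fun_const]
    rfl
  · rw [glue_natAdd]
    simp only [crv, Fin.sum_univ_add]
    simp only [c2]
    simp only [c0, Fin.sum_univ_add, bm_ll, bm_lr, bm_rl, bm_rr, bd_ll, bd_lr, bd_rl, bd_rr,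
      mul_zero, zero_mul, Finset.sum_const_zero, add_zero, zero_add, dz_const, dzb_const, aR, aRb,
      dL, dLb, aLf, aRf, dRf, dLf, aLR, dRL, neg_zero, fun_const]
    rfl

end curvature

section two
variable {n m : ℕ} {X Y : Type} [TopologicalSpace X] [TopologicalSpace Y]
  [ChartedSpace (Cm n) X] [ChartedSpace (Cm m) Y]
  {h : Chart n X → Cm n → Matrix (Fin n) (Fin n) ℂ}
  {h' : Chart m Y → Cm m → Matrix (Fin m) (Fin m) ℂ}

attribute [local instance] prodCS

lemma pc_inj {e e1 : Chart n X} {e' e1' : Chart m Y} (H : pc e e' = pc e1 e1') {p : X × Y}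
    (h1 : p.1 ∈ e.source) (h2 : p.2 ∈ e'.source) : e = e1 ∧ e' = e1' := by
  have t : ∀ q : X × Y, pc e e' q = pc e1 e1' q := fun q => by rw [H]
  have s : ∀ z, (pc e e').symm z = (pc e1 e1').symm z := fun z => by rw [H]
  have u : e.source ×ˢ e'.source = e1.source ×ˢ e1'.source := by
    have : (pc e e').source = (pc e1 e1').source := by rw [H]
    exact this
  constructor
  · refine OpenPartialHomeomorph.ext _ _ (fun x => ?_) (fun z => ?_) ?_
    · have := congrArg fstP (t (x, p.2))
      simpa using this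
    · have := congrArg Prod.fst (s (glue z 0))
      simpa using this
    · ext x
      constructor
      · intro hx
        have : (x, p.2) ∈ e.source ×ˢ e'.source := ⟨hx, h2⟩
        rw [u] at this
        exact this.1
      · intro hx
        have h3 : (p.1, p.2) ∈ e.source ×ˢ e'.source := ⟨h1, h2⟩
        rw [u] at h3
        have : (x, p.2) ∈ e1.source ×ˢ e1'.source := ⟨hx, h3.2⟩
        rw [← u] at this
        exact this.1
  · refine OpenPartialHomeomorph.ext _ _ (fun y => ?_) (fun z => ?_) ?_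
    · have := congrArg sndP (t (p.1, y))
      simpa using this
    · have := congrArg Prod.snd (s (glue 0 z))
      simpa using this
    · ext y
      constructor
      · intro hy
        have : (p.1, y) ∈ e.source ×ˢ e'.source := ⟨h1, hy⟩
        rw [u] at this
        exact this.2
      · intro hy
        have h3 : (p.1, p.2) ∈ e.source ×ˢ e'.source := ⟨h1, h2⟩
        rw [u] at h3
        have : (p.1, y) ∈ e1.source ×ˢ e1'.source := ⟨h3.1, hy⟩
        rw [← u] at this
        exact this.2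

lemma pm_pc {e : Chart n X} {e' : Chart m Y} {p : X × Y} (h1 : At e p.1) (h2 : At e' p.2) :
    pm h h' (pc e e') = bm (h e) (h' e') := by
  obtain ⟨f, f', hE, k1, k2, k3⟩ := pm_dec h h' (at_pc h1 h2)
  obtain ⟨rfl, rfl⟩ := pc_inj (p := p) hE h1.2 h2.2
  rw [k3]; rfl

lemma pm_nonposHSC (hh : IsHermitian h) (hh' : IsHermitian h') (hn : NonposHSC h)
    (hn' : NonposHSC h') : NonposHSC (pm h h') := by
  intro E p hE ξ
  obtain ⟨e, e', rfl, h1, h2, h3⟩ := pm_dec h h' hE
  show (quart (curv (pm h h' (pc e e')) ((pc e e') p)) ξ).re ≤ 0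
  rw [h3]
  have h4 := curv_bm (A := h e) (D := h' e') ((pc e e') p)
    (by simpa using (hh.posDef e p.1 h1).det_pos.ne')
    (by simpa using (hh'.posDef e' p.2 h2).det_pos.ne') ξ
  have h5 : bm (h e) (h' e') = fun z => bd (h e (fstP z)) (h' e' (sndP z)) := rfl
  rw [h5] at h4
  rw [h4]
  simp only [pc_apply, fstP_glue, sndP_glue, Complex.add_re]
  have k1 : (quart (curv (h e) (e p.1)) (fstP ξ)).re ≤ 0 := hn e p.1 h1 _
  have k2 : (quart (curv (h' e') (e' p.2)) (sndP ξ)).re ≤ 0 := hn' e' p.2 h2 _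
  linarith

variable [IsManifold 𝓘(ℂ, Cm n) ω X] [IsManifold 𝓘(ℂ, Cm m) ω Y]

lemma vel_pc {f : ℂ → X × Y} (hf : MDifferentiable 𝓘(ℂ, ℂ) 𝓘(ℂ, Cm (n + m)) f)
    {e : Chart n X} {e' : Chart m Y} {z : ℂ} (h1 : At e (f z).1) (h2 : At e' (f z).2) :
    vel f (pc e e') z = glue (vel (fun ζ => (f ζ).1) e z) (vel (fun ζ => (f ζ).2) e' z) := by
  have k1 := hasDerivAt_vel (curve_fst hf) h1
  have k2 := hasDerivAt_vel (curve_snd hf) h2
  refine HasDerivAt.deriv ?_
  rw [hasDerivAt_pi] at k1 k2 ⊢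
  intro k
  refine Fin.addCases (fun i => ?_) (fun i => ?_) k
  · simpa using k1 i
  · simpa using k2 i

/-- the components of a flat line of the product -/
lemma isPre_comp (hh : IsHermitian h) (hh' : IsHermitian h') {f : ℂ → X × Y}
    (hf : IsFlatLine (pm h h') f) :
    IsPre h (fun z => (f z).1) ∧ IsPre h' (fun z => (f z).2) := by
  haveI : IsManifold 𝓘(ℂ, Cm (n + m)) ω (X × Y) := isManifold_prod
  have hc1 := curve_fst hf.holo
  have hc2 := curve_snd hf.holo
  -- the equations in the product charts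
  have key : ∀ z (e : Chart n X) (e' : Chart m Y), At e (f z).1 → At e' (f z).2 →
      HasDerivAt (fun ζ => glue (vel (fun ζ => (f ζ).1) e ζ) (vel (fun ζ => (f ζ).2) e' ζ))
        (glue (-chr (h e) (e (f z).1) (vel (fun ζ => (f ζ).1) e z))
          (-chr (h' e') (e' (f z).2) (vel (fun ζ => (f ζ).2) e' z))) z ∧
      glue (crv (h e) (e (f z).1) (vel (fun ζ => (f ζ).1) e z))
        (crv (h' e') (e' (f z).2) (vel (fun ζ => (f ζ).2) e' z)) = 0 := by
    intro z e e' h1 h2
    have hE : At (pc e e') (f z) := at_pc h1 h2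
    have d1 : (h e (fstP ((pc e e') (f z)))).det ≠ 0 := by
      simpa using (hh.posDef e _ h1).det_pos.ne'
    have d2 : (h' e' (sndP ((pc e e') (f z)))).det ≠ 0 := by
      simpa using (hh'.posDef e' _ h2).det_pos.ne'
    constructor
    · have g1 : HasDerivAt (vel f (pc e e'))
          (-chr (pm h h' (pc e e')) ((pc e e') (f z)) (vel f (pc e e') z)) z := hf.geod z _ hE
      rw [pm_pc h1 h2, chr_bm _ d1 d2, vel_pc hf.holo h1 h2] at g1
      simp only [pc_apply, fstP_glue, sndP_glue] at g1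
      have g2 : (fun ζ => glue (vel (fun ζ => (f ζ).1) e ζ) (vel (fun ζ => (f ζ).2) e' ζ))
          =ᶠ[𝓝 z] vel f (pc e e') := by
        filter_upwards [eventually_at hc1.continuous h1, eventually_at hc2.continuous h2]
          with ζ a1 a2
        exact (vel_pc hf.holo a1 a2).symm
      have g3 := g1.congr_of_eventuallyEq g2
      have g4 : -glue (chr (h e) (e (f z).1) (vel (fun ζ => (f ζ).1) e z))
          (chr (h' e') (e' (f z).2) (vel (fun ζ => (f ζ).2) e' z)) =
          glue (-chr (h e) (e (f z).1) (vel (fun ζ => (f ζ).1) e z))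
          (-chr (h' e') (e' (f z).2) (vel (fun ζ => (f ζ).2) e' z)) := by
        funext k
        refine Fin.addCases (fun i => ?_) (fun i => ?_) k <;> simp
      rw [g4] at g3
      exact g3
    · have g1 : ∀ l, crv (pm h h' (pc e e')) ((pc e e') (f z)) (vel f (pc e e') z) l = 0 :=
        hf.flat z _ hE
      rw [pm_pc h1 h2, crv_bm _ d1 d2, vel_pc hf.holo h1 h2] at g1
      simp only [pc_apply, fstP_glue, sndP_glue] at g1
      funext k
      exact g1 k
  constructor
  · refine ⟨hc1, fun z e he => ?_, fun z e he l => ?_⟩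
    · have k := (key z e _ he (at_chartAt' _)).1
      rw [hasDerivAt_pi] at k ⊢
      intro i
      simpa using k (Fin.castAdd m i)
    · have k := congrFun (key z e _ he (at_chartAt' _)).2 (Fin.castAdd m l)
      simpa using k
  · refine ⟨hc2, fun z e he => ?_, fun z e he l => ?_⟩
    · have k := (key z _ e (at_chartAt' _) he).1
      rw [hasDerivAt_pi] at k ⊢
      intro i
      simpa using k (Fin.natAdd n i)
    · have k := congrFun (key z _ e (at_chartAt' _) he).2 (Fin.natAdd n l)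
      simpa using k

/-- **flat lines of a product come from flat lines of the factors** -/
theorem flatLine_prod (hh : IsHermitian h) (hh' : IsHermitian h') {f : ℂ → X × Y}
    (hf : IsFlatLine (pm h h') f) :
    (∃ F : ℂ → X, IsFlatLine h F) ∨ ∃ F : ℂ → Y, IsFlatLine h' F := by
  haveI : IsManifold 𝓘(ℂ, Cm (n + m)) ω (X × Y) := isManifold_prod
  obtain ⟨p1, p2⟩ := isPre_comp hh hh' hf
  have a1 := at_chartAt' (n := n) (f 0).1
  have a2 := at_chartAt' (n := m) (f 0).2
  have hu := hf.unit 0 _ (at_pc a1 a2)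
  have hu2 : quad (pm h h' (pc (chartAt (Cm n) (f 0).1) (chartAt (Cm m) (f 0).2))
      ((pc (chartAt (Cm n) (f 0).1) (chartAt (Cm m) (f 0).2)) (f 0)))
      (vel f (pc (chartAt (Cm n) (f 0).1) (chartAt (Cm m) (f 0).2)) 0) = 1 := hu
  rw [pm_pc a1 a2, vel_pc hf.holo a1 a2] at hu2
  unfold bm at hu2
  rw [quad_bd] at hu2
  simp only [pc_apply, fstP_glue, sndP_glue] at hu2
  have hu3 := congrArg Complex.re hu2
  rw [Complex.add_re, Complex.one_re] at hu3
  have s1 : spd h (fun z => (f z).1) 0 = (quad (h (chartAt (Cm n) (f 0).1)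
      (chartAt (Cm n) (f 0).1 (f 0).1)) (vel (fun ζ => (f ζ).1) (chartAt (Cm n) (f 0).1) 0)).re :=
    rfl
  have s2 : spd h' (fun z => (f z).2) 0 = (quad (h' (chartAt (Cm m) (f 0).2)
      (chartAt (Cm m) (f 0).2 (f 0).2)) (vel (fun ζ => (f ζ).2) (chartAt (Cm m) (f 0).2) 0)).re :=
    rfl
  rw [← s1, ← s2] at hu3
  by_cases c : 0 < spd h (fun z => (f z).1) 0
  · exact Or.inl (exists_flatLine hh p1 c)
  · right
    exact exists_flatLine hh' p2 (z₀ := 0) (by linarith)

end two

end Vale.Agent.P272.K.Prod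

namespace Vale.Agent.P272.K

/-- full ampleness in dimension `n`, for a Hermitian metric of nonpositive holomorphic sectional
curvature without flat lines -/
def AmpleNF (n : ℕ) : Prop :=
  ∀ (X : Type) [TopologicalSpace X] [T2Space X] [CompactSpace X] [ConnectedSpace X]
    [ChartedSpace (Cm n) X] [IsManifold 𝓘(ℂ, Cm n) ω X]
    (w h : Chart n X → Cm n → Matrix (Fin n) (Fin n) ℂ) (_ : IsKahler w) (_ : IsHermitian h)
    (_ : NonposHSC h) (_ : ∀ f : ℂ → X, ¬ IsFlatLine h f),
    ∃ φ : Chart n X → Cm n → ℝ, IsCanonicalMetric φ ∧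
      ∀ e x, At e x → (cHess (φ e) (e x)).PosDef

/-- it suffices to prove it in dimensions `≥ 3` -/
theorem ampleNF_of_three (H : ∀ n, 3 ≤ n → AmpleNF n) : ∀ n, 1 ≤ n → AmpleNF n := by
  intro n hn X _ _ _ _ _ _ w h hw hh hneg hno
  letI : ChartedSpace (Cm (n + n)) (X × X) := Prod.prodCS n n X X
  haveI : IsManifold 𝓘(ℂ, Cm (n + n)) ω (X × X) := Prod.isManifold_prod
  letI : ChartedSpace (Cm (n + (n + n))) (X × (X × X)) := Prod.prodCS n (n + n) X (X × X)
  haveI : IsManifold 𝓘(ℂ, Cm (n + (n + n))) ω (X × (X × X)) := Prod.isManifold_prod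
  have h2 := Prod.pm_hermitian hh hh
  have w2 := Prod.pm_kahler hw hw
  have n2 := Prod.pm_nonposHSC hh hh hneg hneg
  have f2 : ∀ f : ℂ → X × X, ¬ IsFlatLine (Prod.pm h h) f := by
    intro f hf
    rcases Prod.flatLine_prod hh hh hf with ⟨F, hF⟩ | ⟨F, hF⟩
    · exact hno F hF
    · exact hno F hF
  have h3 := Prod.pm_hermitian hh h2
  have w3 := Prod.pm_kahler hw w2
  have n3 := Prod.pm_nonposHSC hh h2 hneg n2
  have f3 : ∀ f : ℂ → X × (X × X), ¬ IsFlatLine (Prod.pm h (Prod.pm h h)) f := by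
    intro f hf
    rcases Prod.flatLine_prod hh h2 hf with ⟨F, hF⟩ | ⟨F, hF⟩
    · exact hno F hF
    · exact f2 F hF
  obtain ⟨x0⟩ := (inferInstance : Nonempty X)
  exact Prod.slice_ample (x0, x0) (H (n + (n + n)) (by omega) (X × (X × X)) _ _ w3 h3 n3 f3)

/-- full ampleness in dimension `n` for hyperbolic manifolds with a Hermitian metric of nonpositive
holomorphic sectional curvature -/
def AmpleHyp (n : ℕ) : Prop :=
  ∀ (X : Type) [TopologicalSpace X] [T2Space X] [CompactSpace X] [ConnectedSpace X]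
    [ChartedSpace (Cm n) X] [IsManifold 𝓘(ℂ, Cm n) ω X] (_ : BrodyHyperbolic n X)
    (w h : Chart n X → Cm n → Matrix (Fin n) (Fin n) ℂ) (_ : IsKahler w) (_ : IsHermitian h)
    (_ : NonposHSC h), ∃ φ : Chart n X → Cm n → ℝ, IsCanonicalMetric φ ∧
      ∀ e x, At e x → (cHess (φ e) (e x)).PosDef

theorem ampleHyp_of_three (H : ∀ n, 3 ≤ n → AmpleHyp n) : ∀ n, 1 ≤ n → AmpleHyp n := by
  intro n hn X _ _ _ _ _ _ hB w h hw hh hneg
  letI : ChartedSpace (Cm (n + n)) (X × X) := Prod.prodCS n n X X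
  haveI : IsManifold 𝓘(ℂ, Cm (n + n)) ω (X × X) := Prod.isManifold_prod
  letI : ChartedSpace (Cm (n + (n + n))) (X × (X × X)) := Prod.prodCS n (n + n) X (X × X)
  haveI : IsManifold 𝓘(ℂ, Cm (n + (n + n))) ω (X × (X × X)) := Prod.isManifold_prod
  have b2 : BrodyHyperbolic (n + n) (X × X) := Prod.brody_prod hB hB
  have b3 : BrodyHyperbolic (n + (n + n)) (X × (X × X)) := Prod.brody_prod hB b2
  have h2 := Prod.pm_hermitian hh hh
  have w2 := Prod.pm_kahler hw hw
  have n2 := Prod.pm_nonposHSC hh hh hneg hneg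
  have h3 := Prod.pm_hermitian hh h2
  have w3 := Prod.pm_kahler hw w2
  have n3 := Prod.pm_nonposHSC hh h2 hneg n2
  obtain ⟨x0⟩ := (inferInstance : Nonempty X)
  exact Prod.slice_ample (x0, x0) (H (n + (n + n)) (by omega) (X × (X × X)) b3 _ _ w3 h3 n3)

end Vale.Agent.P272.K
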