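import Vale.Agent.P272.K.AMP.NF.H977.BigS
import Vale.Agent.P272.K.AMP.Main.Step0

/-! # Block C of NEF in the form `BigFrom w s` -/

open scoped Manifold ContDiff ComplexOrder Topology
open Complex Set Filter MeasureTheory

noncomputable section

namespace Vale.Agent.P272.K.AMP.Main

variable {n : ℕ} {X : Type} [TopologicalSpace X] [T2Space X] [CompactSpace X]
  [ChartedSpace (Cm n) X] [IsManifold 𝓘(ℂ, Cm n) ω X] [Nonempty X]

/-- **Block C of NEF**: if a Hermitian metric has nonpositive holomorphic sectional curvature,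
the nef classes `K_X + a w`, `a ≥ s > 0`, have positive top self-intersection. -/
theorem bigFrom_of_nonpos {w h : Chart n X → Cm n → Matrix (Fin n) (Fin n) ℂ}
    (hw : IsKahler w) (hh : IsHermitian h) (hneg : NonposHSC h) {s : ℝ} (hs : 0 < s) :
    BigFrom w s :=
  fun _ ha hnef _ hφ => AMP.NF.big_of_nonpos hw hh hneg (hs.trans_le ha) hnef hφ

end Vale.Agent.P272.K.AMP.Main
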