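import Vale.Agent.P272.K.AMP.Prod.FinalC
import Vale.Agent.P272.K.T4.StmtNF
import Vale.Agent.P272.K.T4.Hom1
import Mathlib.Geometry.Manifold.MFDeriv.Atlas
import Mathlib.Geometry.Manifold.MFDeriv.FDeriv

/-! Entire curves in a product of two complex manifolds. -/

open scoped Manifold ContDiff ComplexOrder Topology
open Complex Set Filter

set_option linter.all false

noncomputable section

namespace Vale.Agent.P272.K.Prod

open Vale.Agent.P272.K

lemma at_chartAt' {n : ℕ} {X : Type} [TopologicalSpace X] [ChartedSpace (Cm n) X] (x : X) :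
    At (chartAt (Cm n) x : Chart n X) x := ⟨chart_mem_atlas (Cm n) x, mem_chart_source (Cm n) x⟩

section one
variable {n : ℕ} {X : Type} [TopologicalSpace X] [ChartedSpace (Cm n) X]
  [IsManifold 𝓘(ℂ, Cm n) ω X] {f : ℂ → X} {e e' : Chart n X} {z : ℂ}

lemma isManifold_one (n : ℕ) (X : Type) [TopologicalSpace X] [ChartedSpace (Cm n) X]
    [IsManifold 𝓘(ℂ, Cm n) ω X] : IsManifold 𝓘(ℂ, Cm n) 1 X :=
  IsManifold.of_le (n := ω) le_top

/-- a holomorphic curve in a chart -/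
lemma chart_diff (hf : MDifferentiable 𝓘(ℂ, ℂ) 𝓘(ℂ, Cm n) f) (he : At e (f z)) :
    DifferentiableAt ℂ (fun ζ => e (f ζ)) z := by
  haveI := isManifold_one n X
  have h1 : MDifferentiableAt 𝓘(ℂ, Cm n) 𝓘(ℂ, Cm n) e (f z) :=
    mdifferentiableAt_atlas he.1 he.2
  have h2 : MDifferentiableAt 𝓘(ℂ, ℂ) 𝓘(ℂ, Cm n) (e ∘ f) z := h1.comp z (hf z)
  exact h2.differentiableAt

lemma eventually_at (hf : Continuous f) (he : At e (f z)) : ∀ᶠ ζ in 𝓝 z, At e (f ζ) := by
  filter_upwards [hf.continuousAt.eventually (e.open_source.mem_nhds he.2)] with ζ hζ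
  exact ⟨he.1, hζ⟩

lemma hasDerivAt_vel (hf : MDifferentiable 𝓘(ℂ, ℂ) 𝓘(ℂ, Cm n) f) (he : At e (f z)) :
    HasDerivAt (fun ζ => e (f ζ)) (vel f e z) z := (chart_diff hf he).hasDerivAt

lemma vel_change (hf : MDifferentiable 𝓘(ℂ, ℂ) 𝓘(ℂ, Cm n) f) (he : At e (f z))
    (he' : At e' (f z)) : vel f e' z = (jacM e e' (f z)).mulVec (vel f e z) := by
  have hτ := transition_differentiableAt he he'
  have h1 : HasDerivAt (fun ζ => (fun w => e' (e.symm w)) (e (f ζ)))
      (fderiv ℂ (fun w => e' (e.symm w)) (e (f z)) (vel f e z)) z :=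
    HasFDerivAt.comp_hasDerivAt (l := fun w => e' (e.symm w)) z hτ.hasFDerivAt
      (hasDerivAt_vel hf he)
  have h2 : (fun ζ => e' (f ζ)) =ᶠ[𝓝 z] fun ζ => (fun w => e' (e.symm w)) (e (f ζ)) := by
    filter_upwards [eventually_at hf.continuous he] with ζ hζ
    simp only [hζ.left_inv]
  have h3 := (h1.congr_of_eventuallyEq h2).deriv
  show deriv (fun ζ => e' (f ζ)) z = _
  rw [h3]
  funext p
  rw [jmat_mulVec hτ]
  rfl

/-- a curve with holomorphic chart expressions is holomorphic -/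
lemma mdiff_of_chart (hc : Continuous f)
    (h : ∀ z, ∃ e : Chart n X, At e (f z) ∧ DifferentiableAt ℂ (fun ζ => e (f ζ)) z) :
    MDifferentiable 𝓘(ℂ, ℂ) 𝓘(ℂ, Cm n) f := by
  haveI := isManifold_one n X
  intro z
  obtain ⟨e, he, hd⟩ := h z
  have h1 : MDifferentiableAt 𝓘(ℂ, Cm n) 𝓘(ℂ, Cm n) e.symm (e (f z)) :=
    mdifferentiableAt_atlas_symm he.1 he.mem_target
  have h2 : MDifferentiableAt 𝓘(ℂ, ℂ) 𝓘(ℂ, Cm n) (fun ζ => e (f ζ)) z :=
    hd.mdifferentiableAt
  have h3 : MDifferentiableAt 𝓘(ℂ, ℂ) 𝓘(ℂ, Cm n) (e.symm ∘ fun ζ => e (f ζ)) z := h1.comp z h2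
  refine h3.congr_of_eventuallyEq ?_
  filter_upwards [eventually_at hc he] with ζ hζ
  simp only [Function.comp_apply, hζ.left_inv]

end one

section two
variable {n m : ℕ} {X Y : Type} [TopologicalSpace X] [TopologicalSpace Y]
  [ChartedSpace (Cm n) X] [ChartedSpace (Cm m) Y]
  [IsManifold 𝓘(ℂ, Cm n) ω X] [IsManifold 𝓘(ℂ, Cm m) ω Y]

attribute [local instance] prodCS

lemma curve_fst {f : ℂ → X × Y}
    (hf : MDifferentiable 𝓘(ℂ, ℂ) 𝓘(ℂ, Cm (n + m)) f) :
    MDifferentiable 𝓘(ℂ, ℂ) 𝓘(ℂ, Cm n) (fun z => (f z).1) := by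
  haveI : IsManifold 𝓘(ℂ, Cm (n + m)) ω (X × Y) := isManifold_prod
  refine mdiff_of_chart (continuous_fst.comp hf.continuous) fun z => ?_
  have hx := at_chartAt' (n := n) (f z).1
  have hy := at_chartAt' (n := m) (f z).2
  refine ⟨_, hx, ?_⟩
  have h1 := chart_diff hf (at_pc hx hy)
  have h2 : DifferentiableAt ℂ (fun ζ => fstP ((pc (chartAt (Cm n) (f z).1)
      (chartAt (Cm m) (f z).2)) (f ζ))) z := by
    have h3 : ContDiff ℂ 1 (fstP : Cm (n + m) → Cm n) := contDiff_fstP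
    exact (h3.differentiable (by simp)).differentiableAt.comp z h1
  simpa using h2

lemma curve_snd {f : ℂ → X × Y}
    (hf : MDifferentiable 𝓘(ℂ, ℂ) 𝓘(ℂ, Cm (n + m)) f) :
    MDifferentiable 𝓘(ℂ, ℂ) 𝓘(ℂ, Cm m) (fun z => (f z).2) := by
  haveI : IsManifold 𝓘(ℂ, Cm (n + m)) ω (X × Y) := isManifold_prod
  refine mdiff_of_chart (continuous_snd.comp hf.continuous) fun z => ?_
  have hx := at_chartAt' (n := n) (f z).1
  have hy := at_chartAt' (n := m) (f z).2
  refine ⟨_, hy, ?_⟩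
  have h1 := chart_diff hf (at_pc hx hy)
  have h2 : DifferentiableAt ℂ (fun ζ => sndP ((pc (chartAt (Cm n) (f z).1)
      (chartAt (Cm m) (f z).2)) (f ζ))) z := by
    have h3 : ContDiff ℂ 1 (sndP : Cm (n + m) → Cm m) := contDiff_sndP
    exact (h3.differentiable (by simp)).differentiableAt.comp z h1
  simpa using h2

/-- a product of Brody hyperbolic manifolds is Brody hyperbolic -/
theorem brody_prod (hX : BrodyHyperbolic n X) (hY : BrodyHyperbolic m Y) :
    BrodyHyperbolic (n + m) (X × Y) := fun f hf s t =>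
  Prod.ext (hX _ (curve_fst hf) s t) (hY _ (curve_snd hf) s t)

end two

end Vale.Agent.P272.K.Prod
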