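import Vale.Agent.P272.K.AMP.NF.H977.Curves
import Vale.Agent.P272.K.T4.Bracket

/-! Flat lines in a product of two complex manifolds. -/

open scoped Manifold ContDiff ComplexOrder Topology
open Complex Set Filter

set_option linter.all false

noncomputable section

namespace Vale.Agent.P272.K.Prod

open T4 (chr crv nq spray nq_spray nq_smTFun nq_diff)

/-! ### curves satisfying the geodesic and the flatness equation -/

section one
variable {n : ℕ} {X : Type} [TopologicalSpace X] [ChartedSpace (Cm n) X]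
  {h : Chart n X → Cm n → Matrix (Fin n) (Fin n) ℂ} {f : ℂ → X} {e e' : Chart n X} {z : ℂ}

/-- a flat line up to the speed -/
structure IsPre (h : Chart n X → Cm n → Matrix (Fin n) (Fin n) ℂ) (f : ℂ → X) : Prop where
  holo : MDifferentiable 𝓘(ℂ, ℂ) 𝓘(ℂ, Cm n) f
  geod : ∀ z e, At e (f z) → HasDerivAt (vel f e) (-chr (h e) (e (f z)) (vel f e z)) z
  flat : ∀ z e, At e (f z) → ∀ l, crv (h e) (e (f z)) (vel f e z) l = 0

/-- the square of the speed -/
def spd (h : Chart n X → Cm n → Matrix (Fin n) (Fin n) ℂ) (f : ℂ → X) (z : ℂ) : ℝ :=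
  nq h (chartAt (Cm n) (f z)) (chartAt (Cm n) (f z) (f z)) (vel f (chartAt (Cm n) (f z)) z)

variable [IsManifold 𝓘(ℂ, Cm n) ω X]

lemma spd_eq (hh : IsHermitian h) (hf : MDifferentiable 𝓘(ℂ, ℂ) 𝓘(ℂ, Cm n) f)
    (he : At e (f z)) : spd h f z = nq h e (e (f z)) (vel f e z) := by
  have h1 := (nq_smTFun hh).change (chartAt (Cm n) (f z)) e (f z)
    (vel f (chartAt (Cm n) (f z)) z) (at_chartAt' _) he
  rw [← vel_change hf (at_chartAt' _) he] at h1
  exact h1

lemma spd_const (hh : IsHermitian h) (hf : IsPre h f) (z w : ℂ) : spd h f z = spd h f w := by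
  have key : ∀ z₀, HasFDerivAt (spd h f) (0 : ℂ →L[ℝ] ℝ) z₀ := by
    intro z₀
    have he : At (chartAt (Cm n) (f z₀)) (f z₀) := at_chartAt' _
    set e := chartAt (Cm n) (f z₀) with hedef
    have h1 : spd h f =ᶠ[𝓝 z₀] fun ζ => nq h e (e (f ζ)) (vel f e ζ) := by
      filter_upwards [eventually_at hf.holo.continuous he] with ζ hζ
      exact spd_eq hh hf.holo hζ
    have h2 : HasDerivAt (fun ζ => (e (f ζ), vel f e ζ))
        (vel f e z₀, -chr (h e) (e (f z₀)) (vel f e z₀)) z₀ :=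
      (hasDerivAt_vel hf.holo he).prodMk (hf.geod z₀ e he)
    have h3 : HasFDerivAt (fun ζ => (e (f ζ), vel f e ζ))
        ((ContinuousLinearMap.toSpanSingleton ℂ
          (vel f e z₀, -chr (h e) (e (f z₀)) (vel f e z₀))).restrictScalars ℝ) z₀ :=
      h2.hasFDerivAt.restrictScalars ℝ
    have h4 : HasFDerivAt (fun p : Cm n × Cm n => nq h e p.1 p.2)
        (fderiv ℝ (fun p : Cm n × Cm n => nq h e p.1 p.2) (e (f z₀), vel f e z₀))
        (e (f z₀), vel f e z₀) := (nq_diff hh he _).hasFDerivAt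
    have h5 := HasFDerivAt.comp (g := fun p : Cm n × Cm n => nq h e p.1 p.2) z₀ h4 h3
    have h6 : (fderiv ℝ (fun p : Cm n × Cm n => nq h e p.1 p.2) (e (f z₀), vel f e z₀)).comp
        ((ContinuousLinearMap.toSpanSingleton ℂ
          (vel f e z₀, -chr (h e) (e (f z₀)) (vel f e z₀))).restrictScalars ℝ) = 0 := by
      ext1 t
      have h7 := nq_spray hh he t (vel f e z₀)
      have h8 : spray (h e) t (e (f z₀), vel f e z₀) =
          t • (vel f e z₀, -chr (h e) (e (f z₀)) (vel f e z₀)) := by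
        simp only [spray, Prod.smul_mk, smul_neg]
      rw [h8] at h7
      simpa only [ContinuousLinearMap.comp_apply, ContinuousLinearMap.coe_restrictScalars',
        ContinuousLinearMap.toSpanSingleton_apply, zero_apply] using h7
    rw [h6] at h5
    exact h5.congr_of_eventuallyEq h1
  exact is_const_of_fderiv_eq_zero (𝕜 := ℝ) (fun z => (key z).differentiableAt)
    (fun z => (key z).fderiv) z w

lemma isPre_of_flatLine (hf : IsFlatLine h f) : IsPre h f where
  holo := hf.holo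
  geod z e he := hf.geod z e he
  flat z e he := hf.flat z e he

lemma chr_smul (g : Cm n → Matrix (Fin n) (Fin n) ℂ) (y w : Cm n) (r : ℂ) :
    chr g y (r • w) = r ^ 2 • chr g y w := by
  funext m
  simp only [chr, Pi.smul_apply, smul_eq_mul, Finset.mul_sum]
  refine Finset.sum_congr rfl fun i _ => Finset.sum_congr rfl fun k _ =>
    Finset.sum_congr rfl fun q _ => ?_
  ring

/-- rescaling -/
theorem exists_flatLine (hh : IsHermitian h) (hf : IsPre h f) {z₀ : ℂ} (h0 : 0 < spd h f z₀) :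
    ∃ F : ℂ → X, IsFlatLine h F := by
  set s : ℝ := spd h f z₀ with hs
  set r : ℝ := (√s)⁻¹ with hr
  have hr2 : r ^ 2 * s = 1 := by
    rw [hr, inv_pow, Real.sq_sqrt h0.le, inv_mul_cancel₀ h0.ne']
  have hvel : ∀ (z : ℂ) (e : Chart n X), At e (f ((r : ℂ) * z)) →
      vel (fun ζ => f ((r : ℂ) * ζ)) e z = (r : ℂ) • vel f e ((r : ℂ) * z) := by
    intro z e he
    have h1 := (hasDerivAt_vel hf.holo he).scomp z ((hasDerivAt_id z).const_mul (r : ℂ))
    have h2 := h1.deriv
    simpa [vel, Function.comp_def] using h2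
  refine ⟨fun ζ => f ((r : ℂ) * ζ), ⟨?_, fun z e he => ?_, fun z e he => ?_, fun z e he l => ?_⟩⟩
  · have h1 : MDifferentiable 𝓘(ℂ, ℂ) 𝓘(ℂ, ℂ) fun ζ : ℂ => (r : ℂ) * ζ :=
      (differentiable_id.const_mul (r : ℂ)).mdifferentiable
    exact hf.holo.comp h1
  · rw [hvel z e he]
    have h1 := spd_eq hh hf.holo he
    rw [spd_const hh hf _ z₀] at h1
    have h2 : (quad (h e (e (f ((r : ℂ) * z)))) ((r : ℂ) • vel f e ((r : ℂ) * z))) = 1 := by
      have h3 : (r : ℂ) • vel f e ((r : ℂ) * z) = fun i => (r : ℂ) * vel f e ((r : ℂ) * z) i := rfl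
      rw [h3, quad_smul]
      have h4 : (quad (h e (e (f ((r : ℂ) * z)))) (vel f e ((r : ℂ) * z))) = ((s : ℝ) : ℂ) := by
        refine Complex.ext ?_ ?_
        · rw [Complex.ofReal_re]; exact h1.symm
        · rw [Complex.ofReal_im]; exact quad_im (hh.posDef e _ he).1 _
      rw [h4]
      exact_mod_cast hr2
    exact h2
  · have h1 := hf.geod ((r : ℂ) * z) e he
    have h2 := (h1.scomp z ((hasDerivAt_id z).const_mul (r : ℂ))).const_smul (r : ℂ)
    have h3 : vel (fun ζ => f ((r : ℂ) * ζ)) e =ᶠ[𝓝 z]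
        fun ζ => (r : ℂ) • vel f e ((r : ℂ) * ζ) := by
      have hc : Continuous fun ζ : ℂ => f ((r : ℂ) * ζ) :=
        hf.holo.continuous.comp (continuous_const.mul continuous_id)
      filter_upwards [eventually_at hc he] with ζ hζ
      exact hvel ζ e hζ
    have h4 := h2.congr_of_eventuallyEq h3
    have h5 : -chr (h e) (e (f ((r : ℂ) * z))) (vel (fun ζ => f ((r : ℂ) * ζ)) e z) =
        (r : ℂ) • (((r : ℂ) * 1) • -chr (h e) (e (f ((r : ℂ) * z))) (vel f e ((r : ℂ) * z))) := by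
      rw [hvel z e he, chr_smul, smul_neg, smul_neg, smul_smul, mul_one, sq]
    rw [← h5] at h4
    exact h4
  · have h1 := hf.flat ((r : ℂ) * z) e he l
    rw [hvel z e he]
    have h2 : ∑ i, ∑ j, ∑ k, curv (h e) (e (f ((r : ℂ) * z))) i j k l *
      (((r : ℂ) • vel f e ((r : ℂ) * z)) i * (starRingEnd ℂ) (((r : ℂ) • vel f e ((r : ℂ) * z)) j) *
        ((r : ℂ) • vel f e ((r : ℂ) * z)) k) = (r : ℂ) ^ 3 *
        crv (h e) (e (f ((r : ℂ) * z))) (vel f e ((r : ℂ) * z)) l := by
      simp only [crv, Finset.mul_sum, Pi.smul_apply, smul_eq_mul, map_mul, Complex.conj_ofReal]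
      refine Finset.sum_congr rfl fun i _ => Finset.sum_congr rfl fun k _ =>
        Finset.sum_congr rfl fun q _ => ?_
      ring
    rw [h2, h1, mul_zero]

end one

end Vale.Agent.P272.K.Prod
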